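import Mathlib
import Vale.Agent.P080.Liouville

/-! # P080: one-sided Liouville theorem in every dimension -/

open Vale.Agent.P080
open scoped RealInnerProductSpace

/-- An entire infinity-subharmonic function is affine with gradient `p` if it lies below such an
affine function, or if it has Lipschitz constant equal to the norm of `p` and exceeds the linear
function of `p` by at most `c t^(1/8)` along one backward half line; an entire infinity-harmonic
function above or below an affine function is affine. -/
theorem Vale.Agent.Results.P080.OneSidedLiouville.result (V : Type)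
    [NormedAddCommGroup V] [InnerProductSpace ℝ V] [FiniteDimensional ℝ V] (u : V → ℝ) (p : V) (c : ℝ) :
    (Continuous u → SubOn u Set.univ →
      ((∀ x, u x ≤ ⟪p, x⟫ + c) ∨
        ((∀ x y, u x ≤ u y + ‖p‖ * ‖x - y‖) ∧
          ∃ a, ∀ t : ℝ, 1 ≤ t → u (a - t • p) ≤ ⟪p, a - t • p⟫ + c * t ^ (1 / 8 : ℝ))) →
      ∃ c', ∀ x, u x = ⟪p, x⟫ + c') ∧
    (InfHarmonicOn u Set.univ → ((∀ x, u x ≤ ⟪p, x⟫ + c) ∨ ∀ x, ⟪p, x⟫ + c ≤ u x) →
      ∃ c', ∀ x, u x = ⟪p, x⟫ + c') := by
  refine ⟨fun hc hu h => ?_, fun hu h => ?_⟩
  · rcases h with hb | ⟨hL, a, hline⟩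
    · exact liouville_above hc hu hb
    · exact liouville_line hc hu hL hline
  · obtain ⟨hc, h1, h2⟩ := (infHarmonicOn_iff u Set.univ).1 hu
    have hc' : Continuous u := continuousOn_univ.1 hc
    rcases h with hb | hb
    · exact liouville_above hc' h1 hb
    · obtain ⟨c', h'⟩ := liouville_above (p := -p) (c := -c) hc'.neg h2
        (fun x => by
          have := hb x
          simp only [Pi.neg_apply, inner_neg_left]
          linarith)
      refine ⟨-c', fun x => ?_⟩
      have := h' x
      simp only [Pi.neg_apply, inner_neg_left] at this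
      linarith
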