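import Mathlib
import Vale.Agent.P080.Symmetric

/-! # P080: infinity-harmonic functions with rotational symmetry -/

open Vale.Agent.P080

/-- A function of `(y, ‖x‖)` is infinity-harmonic iff its restriction to the meridian space is,
across the axis `x = 0` included. -/
theorem Vale.Agent.Results.P080.SymmetryReduction.result (E F : Type)
    [NormedAddCommGroup E] [InnerProductSpace ℝ E] [FiniteDimensional ℝ E]
    [NormedAddCommGroup F] [InnerProductSpace ℝ F] [FiniteDimensional ℝ F]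
    (u : WithLp 2 (E × F) → ℝ) (Ω : Set (WithLp 2 (E × F))) (_ : IsOpen Ω)
    (hu : ∀ z z' : WithLp 2 (E × F), z.fst = z'.fst → ‖z.snd‖ = ‖z'.snd‖ → u z = u z')
    (hΩ : ∀ z z' : WithLp 2 (E × F), z.fst = z'.fst → ‖z.snd‖ = ‖z'.snd‖ → z ∈ Ω → z' ∈ Ω)
    (e : F) (he : ‖e‖ = 1) :
    InfHarmonicOn u Ω ↔
      InfHarmonicOn (fun w : WithLp 2 (E × ℝ) => u (WithLp.toLp 2 (w.fst, w.snd • e)))
        {w | WithLp.toLp 2 (w.fst, w.snd • e) ∈ Ω} :=
  infHarmonicOn_mer_iff hu hΩ he
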